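import Vale.Agent.Lib.P070.G.PartG
import Vale.Agent.Lib.P070.K.PartK

/-!
# P070: part G
-/

namespace P070

theorem partG.{w} : PartG.{w} := partG_of_K partK

end P070
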