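import Vale.Agent.Lib.P070.Interface2
import Vale.Agent.Lib.P070.E.PartE
import Vale.Agent.Lib.P070.E.Build

/-!
# P070: part G (germ theorem) from Kadison transitivity
-/

open Filter Topology

namespace P070

theorem partG_of_K.{w} (hK : PartK.{w}) : PartG.{w} := by
  intro A _ hnt hsep hPI hprop K _ _ _ π hπ ξ hξ
  obtain ⟨D, hD, hDd⟩ := TopologicalSpace.exists_countable_dense A
  obtain ⟨g, hg, hgξ⟩ := partB_of_E (partE_of_K hK) A hnt hPI hprop ⟨D, hD, hDd⟩ K π hπ ξ hξ
  exact ⟨g, fun x => hg x trivial, hgξ⟩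

end P070
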